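import Vale.Agent.N110.Coef

/-! The skew chirp and its truncation. -/

namespace Vale.Agent.N110

open Finset MeasureTheory Vale.Agent.P110 Vale.Agent.P110.AT

lemma ndist_half (x : ℝ) : ndist (x + 1 / 2) = 1 / 2 - ndist x := by
  have h1 := abs_le.1 (abs_sub_round x)
  have h2 : ndist x = |x - round x| := rfl
  set u := x - round x with hu
  rcases le_total u 0 with h | h
  · rw [show x + 1 / 2 = u + 1 / 2 + (round x : ℤ) by rw [hu]; ring, ndist_add_int,
      ndist_eq (by linarith) (by linarith), h2, abs_of_nonpos h]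
    ring
  · rw [show x + 1 / 2 = -(1 / 2 - u) + (round x + 1 : ℤ) by rw [hu]; push_cast; ring,
      ndist_add_int, ndist_neg, ndist_eq (by linarith) (by linarith), h2, abs_of_nonneg h]

lemma e_half (k : ℕ) : e (k / 2) = (-1) ^ k := by
  unfold e
  rw [show ((2 * Real.pi * (k / 2) : ℝ) : ℂ) * Complex.I = k * (Real.pi * Complex.I) by
    push_cast; ring, Complex.exp_nat_mul, Complex.exp_pi_mul_I]

theorem skew_ext {B : ℝ → ℝ} {L R : ℝ} (hL : 0 ≤ L) (hB : IsPath B (1 / 4) 0 0 L)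
    (hR : ∀ x, |B x| ≤ R) :
    ∃ b : ℝ → ℝ, (∀ x y, |b x - b y| ≤ 2 * L * |x - y|) ∧ (∀ x, |b x| ≤ R) ∧
      (∀ x, b (x + 1) = b x) ∧ ∫ t in (0 : ℝ)..1, b t = 0 ∧
      (∀ θ, ∫ t in (0 : ℝ)..(θ + 1 / 2), b t = -∫ t in (0 : ℝ)..θ, b t) ∧
      ∀ k s : ℝ, e (-(k / 2)) = s →
        ∫ φ in (-(1 / 2) : ℝ)..(1 / 2), e ((∫ t in (0 : ℝ)..φ, b t) - k * φ) =
          ((2 * (J B (1 / 4) k).re + s * (2 * (J B (1 / 4) (-k)).re) : ℝ) : ℂ) := by
  let b : ℝ → ℝ := fun x => B (ndist x) - B (1 / 2 - ndist x)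
  have hlip : ∀ x y, |b x - b y| ≤ 2 * L * |x - y| := fun x y => by
    have h1 := hB.lip (ndist x) (ndist y)
    have h2 := hB.lip (1 / 2 - ndist x) (1 / 2 - ndist y)
    have h3 := mul_le_mul_of_nonneg_left (ndist_lip x y) hL
    rw [sub_sub_sub_cancel_left, abs_sub_comm (ndist y)] at h2
    have h4 := abs_sub (B (ndist x) - B (ndist y)) (B (1 / 2 - ndist x) - B (1 / 2 - ndist y))
    rw [sub_sub_sub_comm] at h4
    simp only [b]
    linarith
  have hc : Continuous b := cont_of_lip hlip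
  have hev : ∀ x, b (-x) = b x := fun x => by simp only [b, ndist_neg]
  have hanti : ∀ x, b (x + 1 / 2) = -b x := fun x => by
    simp only [b]
    rw [ndist_half, sub_sub_cancel, neg_sub]
  have hodd : ∀ θ, ∫ t in (0 : ℝ)..(-θ), b t = -∫ t in (0 : ℝ)..θ, b t := fun θ => by
    have h := intervalIntegral.integral_comp_neg (a := 0) (b := θ) b
    rw [neg_zero, intervalIntegral.integral_symm (0 : ℝ) (-θ)] at h
    simp only [hev] at h
    rw [h, neg_neg]
  have hsh : ∀ θ, ∫ t in (0 : ℝ)..(θ + 1 / 2), b t =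
      (∫ t in (0 : ℝ)..(1 / 2), b t) - ∫ t in (0 : ℝ)..θ, b t := fun θ => by
    have h := intervalIntegral.integral_comp_add_right (a := 0) (b := θ) b (1 / 2)
    simp only [hanti, intervalIntegral.integral_neg, zero_add] at h
    rw [← intervalIntegral.integral_add_adjacent_intervals (hc.intervalIntegrable 0 (1 / 2))
      (hc.intervalIntegrable _ _), ← h, sub_eq_add_neg]
  have h0 : ∫ t in (0 : ℝ)..(1 / 2), b t = 0 := by
    have h1 := hsh (-(1 / 4))
    have h2 := hsh (1 / 4 - 1 / 4)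
    rw [hodd, show (-(1 / 4) + 1 / 2 : ℝ) = 1 / 4 by norm_num] at h1
    linarith
  have hsh' : ∀ θ, ∫ t in (0 : ℝ)..(θ + 1 / 2), b t = -∫ t in (0 : ℝ)..θ, b t := fun θ => by
    rw [hsh, h0, zero_sub]
  refine ⟨b, hlip, fun x => ?_, fun x => ?_, ?_, hsh', fun k s hs => ?_⟩
  · simp only [b]
    rcases le_total (ndist x) (1 / 4) with h | h
    · rw [hB.right (1 / 2 - ndist x) (by linarith), sub_zero]
      exact hR _
    · rw [hB.right (ndist x) h, zero_sub, abs_neg]
      exact hR _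
  · rw [show x + 1 = x + 1 / 2 + 1 / 2 by ring, hanti, hanti, neg_neg]
  · have := hsh' (1 / 2)
    rwa [h0, neg_zero, add_halves] at this
  have hg := fun k => cont_J hc k
  have hJ : ∀ k, ∫ φ in (0 : ℝ)..(1 / 4), e ((∫ t in (0 : ℝ)..φ, b t) - k * φ) =
      J B (1 / 4) k := fun k => by
    refine intervalIntegral.integral_congr fun φ hφ => ?_
    rw [Set.uIcc_of_le (by norm_num)] at hφ
    congr 2
    refine intervalIntegral.integral_congr fun t ht => ?_
    rw [Set.uIcc_of_le hφ.1] at ht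
    simp only [b]
    rw [ndist_eq ht.1 (by linarith [ht.2, hφ.2]),
      hB.right (1 / 2 - t) (by linarith [ht.2, hφ.2]), sub_zero]
  have h1 : ∫ φ in (1 / 4 : ℝ)..(1 / 2), e ((∫ t in (0 : ℝ)..φ, b t) - k * φ) =
      s * J B (1 / 4) (-k) := by
    have h := intervalIntegral.integral_comp_sub_left (a := 0) (b := 1 / 4)
      (fun φ => e ((∫ t in (0 : ℝ)..φ, b t) - k * φ)) (1 / 2)
    rw [show (1 / 2 - 1 / 4 : ℝ) = 1 / 4 by norm_num, sub_zero] at h
    rw [← h, ← hJ, ← intervalIntegral.integral_const_mul]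
    refine intervalIntegral.integral_congr fun t _ => ?_
    rw [← hs, ← e_add, show 1 / 2 - t = -t + 1 / 2 by ring, hsh', hodd]
    congr 1
    ring
  have h2 : ∫ φ in (-(1 / 2) : ℝ)..0, e ((∫ t in (0 : ℝ)..φ, b t) - k * φ) =
      starRingEnd ℂ (∫ φ in (0 : ℝ)..(1 / 2), e ((∫ t in (0 : ℝ)..φ, b t) - k * φ)) := by
    have h := intervalIntegral.integral_comp_neg (a := 0) (b := 1 / 2)
      (fun φ => e ((∫ t in (0 : ℝ)..φ, b t) - k * φ))
    rw [neg_zero] at h
    rw [← h, ← intervalIntegral.intervalIntegral_conj]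
    refine intervalIntegral.integral_congr fun t _ => ?_
    rw [← e_neg, hodd]
    congr 1
    ring
  rw [← intervalIntegral.integral_add_adjacent_intervals ((hg k).intervalIntegrable _ 0)
    ((hg k).intervalIntegrable _ _), h2, add_comm, Complex.add_conj,
    ← intervalIntegral.integral_add_adjacent_intervals ((hg k).intervalIntegrable _ (1 / 4))
    ((hg k).intervalIntegrable _ _), hJ, h1, Complex.add_re, Complex.re_ofReal_mul]
  congr 1
  ring

lemma sum_sym (f : ℤ → ℂ) (R : ℕ) : ∑ j ∈ Icc (-R : ℤ) R, f j =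
    f 0 + ∑ l ∈ range R, (f (l + 1 : ℕ) + f (-(l + 1 : ℕ))) := by
  induction R with
  | zero => simp
  | succ R ih =>
    rw [Finset.sum_range_succ, ← add_assoc, ← ih]
    push_cast
    rw [Finset.sum_Icc_succ_eq_add_endpoints, add_comm]

/-- the skew-symmetric trigonometric sum without constant term -/
noncomputable def sk (n : ℕ) (x : ℕ → ℝ) (θ : ℝ) : ℂ :=
  ∑ l ∈ range n, (x l : ℂ) * (e ((l + 1 : ℕ) * θ) + (-1) ^ (l + 1) * e (-((l + 1 : ℕ) * θ)))

theorem anal2 {t : ℝ} (ht : 0 < t) : ∃ N0 : ℕ, ∀ N : ℕ, N0 ≤ N → ∃ (R : ℕ) (x : ℕ → ℝ),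
    (R : ℝ) ≤ (1 + t) * (2 * N) ∧ (∀ l, |x l| ≤ 1 + t) ∧
    ∀ θ, |‖sk R x θ‖ - 2 * √N| ≤ t * √N := by
  obtain ⟨S⟩ := slot2 (t / 2) (by positivity)
  obtain ⟨C, N1, hC, h1⟩ := coeff2 S (by positivity) ht
  obtain ⟨N2, h2⟩ := vp_trunc (L := 8 * C) (C := 4 * (1 + t + C)) (η := t / 2) (ε := t / 4)
    (by positivity) (by positivity) (by positivity)
  refine ⟨N1 + N2 + ⌈4 * C / t⌉₊ + ⌈(2 * (2 + t) / t) ^ 2⌉₊ + 1, fun N hN => ?_⟩
  obtain ⟨R, B, hR, hB, hBR, hk⟩ := h1 N (by omega)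
  have hN1 : (1 : ℝ) ≤ N := by exact_mod_cast (by omega : 1 ≤ N)
  have hN2 : 4 * C / t ≤ N :=
    (Nat.le_ceil _).trans (by exact_mod_cast (by omega : ⌈4 * C / t⌉₊ ≤ N))
  have hN3 : 2 * (2 + t) / t ≤ √N := Real.le_sqrt_of_sq_le
    ((Nat.le_ceil _).trans (by exact_mod_cast (by omega : ⌈(2 * (2 + t) / t) ^ 2⌉₊ ≤ N)))
  rw [div_le_iff₀ ht] at hN2 hN3
  have hB4 : IsPath (fun x => 2 * B (2 * x)) (1 / 4) 0 0 (4 * C * N) := by
    refine ⟨fun x y => ?_, fun x hx => ?_, fun x hx => ?_⟩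
    · have := hB.lip (2 * x) (2 * y)
      rw [← mul_sub, abs_mul, abs_two] at this
      rw [← mul_sub, abs_mul, abs_two]
      linarith
    · rw [hB.left _ (by linarith), mul_zero]
    · rw [hB.right _ (by linarith), mul_zero]
  obtain ⟨b, hb1, hb2, hb3, hb4, hb5, hb6⟩ := skew_ext (R := 2 * R) (by positivity) hB4
    (fun x => by rw [abs_mul, abs_two]; linarith [hBR (2 * x)])
  have hc : Continuous b := cont_of_lip hb1
  have hI : ∀ θ : ℝ, ∫ s in (0 : ℝ)..θ, (b s + (2 * R : ℕ)) =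
      (∫ s in (0 : ℝ)..θ, b s) + (2 * R : ℕ) * θ := fun θ => by
    rw [intervalIntegral.integral_add (hc.intervalIntegrable _ _) intervalIntegrable_const,
      intervalIntegral.integral_const, smul_eq_mul, sub_zero, mul_comm]
  obtain ⟨w, W, hW, hw, hP⟩ := h2 N (by omega) (4 * R) (fun x => b x + (2 * R : ℕ))
    (by push_cast; nlinarith)
    (fun x y => by rw [add_sub_add_right_eq_sub]; exact (hb1 x y).trans (le_of_eq (by ring)))
    (fun x => by
      have := abs_le.1 (hb2 x)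
      have : 0 ≤ t / 2 * N / 4 := by positivity
      push_cast
      constructor <;> linarith)
    (fun x => by simp only [hb3]) ⟨(2 * R : ℕ), by rw [hI, hb4]; push_cast; ring⟩
  set c : ℝ → ℂ := fun k =>
    ∫ φ in (-(1 / 2) : ℝ)..(1 / 2), e ((∫ t in (0 : ℝ)..φ, b t) - k * φ) with hcdef
  set r : ℕ → ℝ := fun k =>
    (J B (1 / 2) (k / 2)).re + (-1) ^ k * (J B (1 / 2) (-(k / 2))).re with hr
  have hss : ∀ k : ℕ, (-1 : ℂ) ^ k * (-1) ^ k = 1 := fun k => by rw [← mul_pow]; simp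
  have hc1 : ∀ k : ℕ, c k = r k := fun k => by
    rw [hcdef]
    simp only
    rw [hb6 k ((-1) ^ k) (by rw [e_neg, e_half]; simp), J_scale, J_scale, Complex.re_ofReal_mul,
      Complex.re_ofReal_mul, hr, neg_div]
    congr 1
    ring
  have hc2 : ∀ k : ℕ, c (-k) = (-1) ^ k * r k := fun k => by
    rw [hcdef]
    simp only
    rw [hb6 (-k) ((-1) ^ k) (by rw [neg_div, neg_neg, e_half]; simp), neg_neg, J_scale, J_scale,
      Complex.re_ofReal_mul, Complex.re_ofReal_mul, hr, neg_div]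
    push_cast
    linear_combination (-((J B (1 / 2) (-(k / 2))).re : ℂ)) * hss k
  set R' := 2 * R + W with hR'
  set P : ℝ → ℂ := fun θ => w (2 * R) * r 0 + ∑ l ∈ range R',
    (w ((l + 1 : ℕ) + 2 * R) * r (l + 1) * e ((l + 1 : ℕ) * θ) +
      w (-(l + 1 : ℕ) + 2 * R) * ((-1) ^ (l + 1) * r (l + 1)) * e (-((l + 1 : ℕ) * θ))) with hPdef
  have hP' : ∀ θ, ‖P θ - e (∫ s in (0 : ℝ)..θ, b s)‖ ≤ t / 4 := fun θ => by
    have key : ∀ z : ℂ, ‖e (-((2 * R : ℕ) * θ)) * z‖ = ‖z‖ := fun z => by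
      rw [norm_mul, norm_e, one_mul]
    refine le_trans (le_of_eq ?_) ((key _).trans_le (hP θ))
    rw [mul_sub, ← e_add, hI, Finset.mul_sum]
    congr 2
    · have h3 := sum_sym (fun j => w (j + 2 * R) * c j * e (j * θ)) R'
      rw [hPdef]
      simp only [Int.cast_neg, Int.cast_natCast, hc1, hc2, neg_mul ((_ : ℕ) : ℝ), Int.cast_zero,
        zero_mul, zero_add, e_zero, mul_one] at h3 ⊢
      rw [show c 0 = r 0 by rw [← hc1, Nat.cast_zero]] at h3
      rw [← h3]
      refine Finset.sum_bij' (fun j _ => j + 2 * R) (fun j _ => j - 2 * R) ?_ ?_ ?_ ?_ ?_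
      · intro j hj
        simp only [Finset.mem_Icc] at hj ⊢
        omega
      · intro j hj
        simp only [Finset.mem_Icc] at hj ⊢
        omega
      · intro j _
        ring
      · intro j _
        ring
      · intro j _
        rw [mul_left_comm, ← e_add, hcdef]
        congr 2
        · refine intervalIntegral.integral_congr fun φ _ => ?_
          rw [hI]
          congr 1
          push_cast
          ring
        · push_cast
          ring
    · congr 1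
      ring
  have hs : 0 ≤ √(N : ℝ) := Real.sqrt_nonneg _
  refine ⟨R', fun l => (w ((l + 1 : ℕ) + 2 * R) + w (-(l + 1 : ℕ) + 2 * R)) / 2 *
    (√N * (2 * r (l + 1))), ?_, fun l => ?_, fun θ => ?_⟩
  · rw [hR']
    push_cast
    linarith
  · have h3 := hk (l + 1)
    rw [if_neg l.succ_ne_zero] at h3
    have h4 := hw ((l + 1 : ℕ) + 2 * R)
    have h5 := hw (-(l + 1 : ℕ) + 2 * R)
    rw [abs_mul, ← one_mul (1 + t)]
    refine mul_le_mul (abs_le.2 ⟨by linarith, by linarith⟩) (le_of_eq_of_le ?_ h3)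
      (abs_nonneg _) zero_le_one
    rw [hr]
    congr 1
    ring
  · have h3 := hP' θ
    have h4 := hP' (θ + 1 / 2)
    rw [hb5, e_neg, ← RCLike.norm_conj, map_sub, Complex.conj_conj] at h4
    have h5 := hk 0
    rw [if_pos rfl] at h5
    have h6 : ‖(w (2 * R) * (√N * (2 * r 0)) : ℝ)‖ ≤ 1 * (2 + t) := by
      rw [Real.norm_eq_abs, abs_mul]
      refine mul_le_mul (abs_le.2 ⟨by linarith [(hw (2 * R)).1], (hw _).2⟩)
        (le_of_eq_of_le ?_ h5) (abs_nonneg _) zero_le_one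
      rw [hr]
      congr 1
      ring
    have h7 : sk R' (fun l => (w ((l + 1 : ℕ) + 2 * R) + w (-(l + 1 : ℕ) + 2 * R)) / 2 *
        (√N * (2 * r (l + 1)))) θ - (2 * √N : ℝ) * e (∫ s in (0 : ℝ)..θ, b s) =
        (√N : ℝ) * (P θ - e (∫ s in (0 : ℝ)..θ, b s)) +
        (√N : ℝ) * (starRingEnd ℂ (P (θ + 1 / 2)) - e (∫ s in (0 : ℝ)..θ, b s)) -
        (w (2 * R) * (√N * (2 * r 0)) : ℝ) := by
      have h8 : sk R' (fun l => (w ((l + 1 : ℕ) + 2 * R) + w (-(l + 1 : ℕ) + 2 * R)) / 2 *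
          (√N * (2 * r (l + 1)))) θ = (√N : ℝ) * (P θ + starRingEnd ℂ (P (θ + 1 / 2))) -
          (w (2 * R) * (√N * (2 * r 0)) : ℝ) := by
        rw [hPdef]
        simp only [map_add, map_sum, map_mul, Complex.conj_ofReal, sk]
        rw [add_add_add_comm, ← Finset.sum_add_distrib, mul_add, Finset.mul_sum, eq_sub_iff_add_eq,
          add_comm]
        congr 1
        · push_cast
          ring
        refine Finset.sum_congr rfl fun l _ => ?_
        have a1 : e (((l + 1 : ℕ) : ℝ) * (θ + 1 / 2)) =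
            (-1) ^ (l + 1) * e ((l + 1 : ℕ) * θ) := by
          rw [← e_half, ← e_add]
          congr 1
          ring
        rw [e_neg (_ * (θ + 1 / 2)), Complex.conj_conj, a1, map_mul, ← e_neg]
        simp only [map_pow, map_neg, map_one]
        push_cast
        linear_combination (-(√N : ℝ) * w (-(l + 1) + 2 * R) * r (l + 1) *
          e ((l + 1) * θ) : ℂ) * hss (l + 1)
      rw [h8]
      push_cast
      ring
    have h9 := abs_norm_sub_norm_le (sk R' (fun l => (w ((l + 1 : ℕ) + 2 * R) +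
      w (-(l + 1 : ℕ) + 2 * R)) / 2 * (√N * (2 * r (l + 1)))) θ)
      ((2 * √N : ℝ) * e (∫ s in (0 : ℝ)..θ, b s))
    rw [h7, norm_mul, norm_e, mul_one, Complex.norm_of_nonneg (by positivity)] at h9
    refine h9.trans ((norm_sub_le _ _).trans ?_)
    rw [Complex.norm_real]
    refine (add_le_add (norm_add_le _ _) h6).trans ?_
    rw [norm_mul, norm_mul, Complex.norm_of_nonneg hs]
    nlinarith [mul_le_mul_of_nonneg_left h3 hs, mul_le_mul_of_nonneg_left h4 hs]

end Vale.Agent.N110
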