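import Vale.Agent.P110.Bdl.B1

/-! Slot systems on the double cover of the circle. -/

namespace Vale.Agent.N110

open Finset Vale.Agent.P110 Vale.Agent.P110.CellProof

/-- A slot system whose slots carry a sheet of the double cover; the algebraic condition holds
for half integers. -/
structure Slot2 (η : ℝ) extends SlotSystem η where
  σ : ℕ → Bool
  den : ℕ
  den_pos : 0 < den
  den_int : ∀ i, ∃ z : ℤ, (den : ℝ) * τ i = z
  alg2 : ∀ p < P, ∀ k : ℤ, ∀ ζ : ℝ,
    |∑ i ∈ (range n).filter (fun i => blk i = p),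
      2 * Real.sqrt ((τ (i + 1) - τ i) / β p) *
        Real.cos (2 * Real.pi * (ω i - k / 2 * ((if up i then τ i else τ (i + 1)) +
          if σ i then 1 else 0) - (if up i then 1 else -1) * (τ (i + 1) - τ i) * ζ))| ≤ 1

/-- the term of one cell slot -/
noncomputable def cterm {η : ℝ} (C : CellSystem η) (σ : C.ι → Bool) (p : C.κ) (k : ℤ) (ζ : ℝ)
    (i : C.ι) : ℝ :=
  2 * Real.sqrt ((C.len i : ℝ) / (2 * C.K) / C.β p) *
    Real.cos (2 * Real.pi * (C.ω i - k / 2 * ((if C.up i then (C.start i : ℝ) / (2 * C.K)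
      else ((C.start i + C.len i : ℕ) : ℝ) / (2 * C.K)) + if σ i then 1 else 0)
      - (if C.up i then 1 else -1) * ((C.len i : ℝ) / (2 * C.K)) * ζ))

open Classical in
theorem sort2 {η : ℝ} (C : CellSystem η) (σ : C.ι → Bool)
    (h : ∀ p k ζ, |∑ i ∈ @Finset.univ C.ι C.fι, if C.blk i = p then cterm C σ p k ζ i else 0| ≤ 1) :
    Nonempty (Slot2 η) := by
  let _ := C.fι
  let _ := C.fκ
  obtain ⟨n, pos, f, hn, pos0, posn, hlt, hst, hend, hinj, hsurj⟩ :=
    exists_enum C.K C.start C.len C.K_pos C.len_pos C.le_K C.cover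
  have hKpos : (0 : ℝ) < C.K := by exact_mod_cast C.K_pos
  let en : C.κ ≃ Fin (Fintype.card C.κ) := Fintype.equivFin C.κ
  have hlen : ∀ i < n, ((pos (i + 1) : ℝ) / (2 * C.K) - (pos i : ℝ) / (2 * C.K))
      = (C.len (f i) : ℝ) / (2 * C.K) := by
    intro i hi
    rw [← hend i hi, ← hst i hi]
    push_cast
    ring
  have key : ∀ F : C.ι → ℝ, ∑ i ∈ range n, F (f i) = ∑ x, F x := by
    intro F
    refine Finset.sum_bij (fun i _ => f i) (fun _ _ => Finset.mem_univ _) ?_ ?_ (fun _ _ => rfl)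
    · intro a ha b hb hab
      exact hinj a (Finset.mem_range.mp ha) b (Finset.mem_range.mp hb) hab
    · intro x _
      obtain ⟨i, hi, hx⟩ := hsurj x
      exact ⟨i, Finset.mem_range.mpr hi, hx⟩
  have halg : ∀ p < Fintype.card C.κ, ∀ k : ℤ, ∀ ζ : ℝ,
      |∑ i ∈ (range n).filter (fun i => (en (C.blk (f i)) : ℕ) = p),
        2 * Real.sqrt (((pos (i + 1) : ℝ) / (2 * C.K) - (pos i : ℝ) / (2 * C.K)) /
          (if h : p < Fintype.card C.κ then C.β (en.symm ⟨p, h⟩) else 1)) *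
        Real.cos (2 * Real.pi * (C.ω (f i) - k / 2 * ((if C.up (f i) then (pos i : ℝ) / (2 * C.K)
          else (pos (i + 1) : ℝ) / (2 * C.K)) + if σ (f i) then 1 else 0) -
          (if C.up (f i) then 1 else -1) *
            ((pos (i + 1) : ℝ) / (2 * C.K) - (pos i : ℝ) / (2 * C.K)) * ζ))| ≤ 1 := by
    intro p hp k ζ
    have h2 := h (en.symm ⟨p, hp⟩) k ζ
    rw [← key] at h2
    rw [Finset.sum_filter]
    refine le_trans (le_of_eq ?_) h2
    congr 1
    refine Finset.sum_congr rfl fun i hi => ?_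
    have hi' := Finset.mem_range.mp hi
    have hiff : ((en (C.blk (f i)) : ℕ) = p) ↔ (C.blk (f i) = en.symm ⟨p, hp⟩) := by
      rw [Equiv.eq_symm_apply, Fin.ext_iff]
    by_cases hc : C.blk (f i) = en.symm ⟨p, hp⟩
    · rw [if_pos (hiff.mpr hc), if_pos hc, dif_pos hp, cterm, hlen i hi', hend i hi', hst i hi']
    · rw [if_neg (fun h => hc (hiff.mp h)), if_neg hc]
  refine ⟨{
    n := n
    P := Fintype.card C.κ
    τ := fun i => (pos i : ℝ) / (2 * C.K)
    up := fun i => C.up (f i)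
    blk := fun i => (en (C.blk (f i)) : ℕ)
    ω := fun i => C.ω (f i)
    β := fun p => if h : p < Fintype.card C.κ then C.β (en.symm ⟨p, h⟩) else 1
    n_pos := hn
    τ_zero := by simp only [pos0, CharP.cast_eq_zero, zero_div]
    τ_last := by rw [posn]; field_simp
    τ_lt := ?_
    blk_lt := fun i _ => (en (C.blk (f i))).2
    β_pos := ?_
    sum_β := ?_
    alg := ?_
    σ := fun i => σ (f i)
    den := 2 * C.K
    den_pos := by have := C.K_pos; omega
    den_int := fun i => ⟨pos i, by push_cast; field_simp⟩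
    alg2 := halg }⟩
  · intro i hi
    have h1 : (pos i : ℝ) < pos (i + 1) := by exact_mod_cast hlt i hi
    exact div_lt_div_of_pos_right h1 (by positivity)
  · intro p
    by_cases h : p < Fintype.card C.κ
    · rw [dif_pos h]; exact C.β_pos _
    · rw [dif_neg h]; exact one_pos
  · have h1 : ∑ p ∈ range (Fintype.card C.κ),
        (if h : p < Fintype.card C.κ then C.β (en.symm ⟨p, h⟩) else 1)
        = ∑ p : Fin (Fintype.card C.κ), C.β (en.symm p) := by
      rw [Finset.sum_range]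
      refine Finset.sum_congr rfl fun p _ => ?_
      rw [dif_pos p.2]
    rw [h1, Equiv.sum_comp en.symm C.β]
    exact C.sum_β
  · intro p hp k ζ
    refine le_trans (le_of_eq ?_) (halg p hp (2 * k) ζ)
    congr 1
    refine Finset.sum_congr rfl fun i _ => ?_
    congr 1
    rw [← cos_add_int _ (-(k * if σ (f i) then 1 else 0))]
    congr 2
    push_cast
    split_ifs <;> ring

variable {d : ℕ} {X : Finset (Fin d → ℤ)} {V : Fin d → ℤ}

/-- the sheet of a comb slot -/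
def sheet (S : CombSystem d X V) (i : Slot S) : Bool :=
  decide (Odd ((i.2.2 : ℤ) + (dot i.2.1.1 (S.R i.1) + i.2.2 * (S.q i.2.1.1 * S.g)) /
    (2 * KK S : ℕ) + if upS S i then 0 else 1))

lemma MM_odd (S : CombSystem d X V) : Odd (MM S) :=
  Finset.prod_induction _ Odd (fun _ _ ha hb => ha.mul hb) odd_one S.q_odd

lemma slot_cos2 (hG : GoodSet d X V) (S : CombSystem d X V) (a : (Fin d → ℤ) → ℝ)
    (W : (Fin d → ℤ) → ℕ → ℝ) (i : Slot S) (k h : ℤ) (hh : 2 * h = MM S + 1) (ζ : ℝ) :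
    Real.cos (2 * Real.pi * (omS S a W i
          - k / 2 * ((if upS S i then (startS S i : ℝ) / (2 * KK S)
              else ((startS S i + lenS S i : ℕ) : ℝ) / (2 * KK S)) + if sheet S i then 1 else 0)
          - (if upS S i then 1 else -1) * ((lenS S i : ℝ) / (2 * KK S)) * ζ)) =
      Real.cos (2 * Real.pi * (W i.2.1.1 i.2.2 + (hsgn a i.2.1.1 +
        k * MM S / 2 * (dot i.2.1.1 (S.R i.1) : ℝ) / (2 * KK S))
        - (k * h : ℤ) * (AA S i.1 i.2.1.1 i.2.2 / (2 * KK S))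
        - (dot i.2.1.1 V : ℝ) / (2 * KK S) * ζ)) := by
  have hK1 : (KK S : ℝ) ≠ 0 := by have := KK_pos S; positivity
  have hl : (lenS S i : ℝ) = dot i.2.1.1 V := by exact_mod_cast lenS_cast hG S i
  set z : ℤ := (dot i.2.1.1 (S.R i.1) + i.2.2 * (S.q i.2.1.1 * S.g)) / (2 * KK S : ℕ) with hz
  have hA : (AA S i.1 i.2.1.1 i.2.2 : ℝ) =
      dot i.2.1.1 (S.R i.1) + (i.2.2 : ℕ) * (S.q i.2.1.1 * S.g) - z * (2 * KK S) := by
    have h1 := Int.emod_add_mul_ediv (dot i.2.1.1 (S.R i.1) + i.2.2 * (S.q i.2.1.1 * S.g))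
      ((2 * KK S : ℕ) : ℤ)
    rw [← hz] at h1
    have h3 := congrArg (Int.cast : ℤ → ℝ) h1
    unfold AA
    push_cast at h3 ⊢
    linarith
  have hg : (S.g : ℝ) * MM S = 2 * KK S := by
    have := two_KK S
    rw [mul_comm]
    exact_mod_cast this.symm
  have hh' : (h : ℝ) = (MM S + 1) / 2 := by
    have : (2 * h : ℝ) = MM S + 1 := by exact_mod_cast hh
    linarith
  obtain ⟨q, hq⟩ := S.q_odd _ i.2.1.2
  obtain ⟨m, hm⟩ := MM_odd S
  have hq' : (S.q i.2.1.1 : ℝ) = 2 * q + 1 := by exact_mod_cast hq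
  have hm' : (MM S : ℝ) = 2 * m + 1 := by exact_mod_cast hm
  have hM0 : (MM S : ℝ) ≠ 0 := by rw [hm']; positivity
  have hg' : (S.g : ℝ) = 2 * KK S / MM S := by rw [← hg]; field_simp
  -- the parity
  obtain ⟨u, hu⟩ : ∃ u : ℤ, ((i.2.2 : ℕ) : ℝ) + z + (if upS S i then 0 else 1) +
      (if sheet S i then 1 else 0) = 2 * u := by
    by_cases ho : Odd ((i.2.2 : ℤ) + z + if upS S i then 0 else 1)
    · have hs : sheet S i = true := by rw [sheet, ← hz]; exact decide_eq_true ho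
      obtain ⟨u, hu⟩ := ho
      refine ⟨u + 1, ?_⟩
      have := congrArg (Int.cast : ℤ → ℝ) hu
      push_cast at this ⊢
      rw [hs, if_pos rfl]
      linarith
    · have hs : sheet S i = false := by rw [sheet, ← hz]; exact decide_eq_false ho
      obtain ⟨u, hu⟩ := Int.not_odd_iff_even.1 ho
      refine ⟨u, ?_⟩
      have := congrArg (Int.cast : ℤ → ℝ) hu
      push_cast at this ⊢
      rw [hs, if_neg Bool.false_ne_true]
      linarith
  generalize (if sheet S i then (1 : ℝ) else 0) = sh at hu ⊢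
  by_cases h : AA S i.1 i.2.1.1 i.2.2 < KK S
  · have hup : upS S i = true := by simp only [upS, h, decide_true]
    have hs : (startS S i : ℝ) = AA S i.1 i.2.1.1 i.2.2 := by
      exact_mod_cast (startS_up hG S i h).1
    rw [hup, if_pos rfl] at hu
    rw [omS, hup, if_pos rfl, if_pos rfl, if_pos rfl, hs, hl, one_mul,
      ← cos_add_int _ (k * (u - (q + 1) * (i.2.2 : ℕ) + m * z))]
    congr 2
    have hsh : sh = 2 * u - (i.2.2 : ℕ) - z := by linarith
    push_cast
    rw [hA, hsh, hh', hg', hq', hm']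
    field_simp
    ring
  · have hup : upS S i = false := by simp [upS, h]
    have hs : (startS S i : ℝ) = 2 * KK S - AA S i.1 i.2.1.1 i.2.2 - dot i.2.1.1 V := by
      exact_mod_cast (startS_down hG S i h).1
    rw [hup, if_neg Bool.false_ne_true] at hu
    rw [omS, hup, if_neg Bool.false_ne_true, if_neg Bool.false_ne_true,
      if_neg Bool.false_ne_true]
    have hsh : sh = 2 * u - (i.2.2 : ℕ) - z - 1 := by linarith
    rw [← Real.cos_neg (2 * Real.pi * (W _ _ + _ - _ - _)),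
      ← cos_add_int _ (k * (u + q * (i.2.2 : ℕ) - (m + 1) * z))]
    congr 1
    push_cast
    rw [hs, hl, hA, hsh, hh', hg', hq', hm']
    field_simp
    ring

lemma comb_alg2 (hG : GoodSet d X V) (S : CombSystem d X V) (a : (Fin d → ℤ) → ℝ)
    (W : (Fin d → ℤ) → ℕ → ℝ)
    (hW : ∀ χ ∈ X, ∀ k : ℤ, ∑ s ∈ range (mm S χ), e (W χ s - k * s / (mm S χ)) =
      (Real.sqrt (mm S χ) : ℂ) * e (-((Ac S χ) * k ^ 2 / (mm S χ))))
    (β : ℝ) (hβ : 0 < β) (p : Fin S.P) (k : ℤ) (ζ : ℝ) : ∃ γ : Fin d → ℝ,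
    ∑ x : (Σ χ : {x // x ∈ X}, Fin (mm S χ.1)),
      2 * Real.sqrt ((lenS S (p, x) : ℝ) / (2 * KK S) / β) *
        Real.cos (2 * Real.pi * (omS S a W (p, x)
          - k / 2 * ((if upS S (p, x) then (startS S (p, x) : ℝ) / (2 * KK S)
              else ((startS S (p, x) + lenS S (p, x) : ℕ) : ℝ) / (2 * KK S)) +
              if sheet S (p, x) then 1 else 0)
          - (if upS S (p, x) then 1 else -1) * ((lenS S (p, x) : ℝ) / (2 * KK S)) * ζ)) =
      2 * ∑ χ ∈ X, (Real.sqrt ((dot χ V : ℝ) / (S.q χ * S.g * β)) *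
        (if a χ < 0 then -1 else 1)) * Real.cos (2 * Real.pi * ∑ i, (χ i : ℝ) * γ i) := by
  obtain ⟨m, hm⟩ := MM_odd S
  have hh : 2 * ((m : ℤ) + 1) = MM S + 1 := by rw [hm]; push_cast; ring
  set k' : ℤ := k * (m + 1) with hk'
  refine ⟨fun i => (S.c i : ℝ) * k' ^ 2 / MM S + k' * (S.R p i : ℝ) / (2 * KK S) +
    ζ * V i / (2 * KK S) - k * MM S / 2 * (S.R p i : ℝ) / (2 * KK S), ?_⟩
  rw [← Finset.univ_sigma_univ, Finset.sum_sigma, Finset.mul_sum, ← Finset.sum_coe_sort X]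
  refine Finset.sum_congr rfl fun χ _ => ?_
  obtain ⟨χ, hχ⟩ := χ
  have hmpos : (0 : ℝ) < mm S χ := by exact_mod_cast mm_pos S χ
  have hqpos : (0 : ℝ) < S.q χ := by exact_mod_cast q_pos S hχ
  have hgpos : (0 : ℝ) < S.g := by exact_mod_cast S.g_pos
  have h2K : (2 * KK S : ℝ) = S.q χ * mm S χ * S.g := by
    have := two_KK S
    rw [← q_mul_mm S hχ] at this
    exact_mod_cast this
  have hl : ∀ s : Fin (mm S χ), (lenS S (p, ⟨⟨χ, hχ⟩, s⟩) : ℝ) = dot χ V := fun s => by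
    exact_mod_cast lenS_cast hG S (p, ⟨⟨χ, hχ⟩, s⟩)
  rw [Finset.sum_congr rfl fun s _ => by
    rw [slot_cos2 hG S a W (p, ⟨⟨χ, hχ⟩, s⟩) k _ hh ζ, hl s], ← Finset.mul_sum]
  dsimp only
  rw [← hk', comb_sum S hχ p (W χ) (hW χ hχ) _ k' ζ]
  set Θ := ∑ i, (χ i : ℝ) * ((S.c i : ℝ) * k' ^ 2 / MM S + k' * (S.R p i : ℝ) / (2 * KK S) +
    ζ * V i / (2 * KK S) - k * MM S / 2 * (S.R p i : ℝ) / (2 * KK S)) with hΘ
  have hΘ' : ∑ i, (χ i : ℝ) * ((S.c i : ℝ) * k' ^ 2 / MM S + k' * (S.R p i : ℝ) / (2 * KK S) +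
      ζ * V i / (2 * KK S)) - (hsgn a χ + k * MM S / 2 * (dot χ (S.R p) : ℝ) / (2 * KK S)) =
      Θ - hsgn a χ := by
    have : k * MM S / 2 * (dot χ (S.R p) : ℝ) / (2 * KK S) =
        ∑ i, (χ i : ℝ) * (k * MM S / 2 * (S.R p i : ℝ) / (2 * KK S)) := by
      unfold dot
      push_cast
      rw [Finset.mul_sum, Finset.sum_div]
      exact Finset.sum_congr rfl fun i _ => by ring
    simp only [hΘ, mul_sub, Finset.sum_sub_distrib]
    rw [this]
    ring
  have hcos : Real.cos (2 * Real.pi * (Θ - hsgn a χ)) =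
      (if a χ < 0 then -1 else 1) * Real.cos (2 * Real.pi * Θ) := by
    unfold hsgn
    by_cases h : a χ < 0
    · rw [if_pos h, if_pos h, show 2 * Real.pi * (Θ - 1 / 2) = 2 * Real.pi * Θ - Real.pi by ring,
        Real.cos_sub_pi]
      ring
    · rw [if_neg h, if_neg h]; simp
  have hsq : Real.sqrt ((dot χ V : ℝ) / (2 * KK S) / β) * Real.sqrt (mm S χ) =
      Real.sqrt ((dot χ V : ℝ) / (S.q χ * S.g * β)) := by
    rw [← Real.sqrt_mul' _ hmpos.le]
    congr 1
    rw [h2K]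
    field_simp
  rw [hΘ', hcos, ← hsq]
  ring

theorem slot2 (η : ℝ) (hη : 0 < η) : Nonempty (Slot2 η) := by
  classical
  set η' : ℝ := min η 1 with hη'
  have hη'0 : 0 < η' := lt_min hη one_pos
  have hη'1 : η' ≤ 1 := min_le_right _ _
  have hη'η : η' ≤ η := min_le_left _ _
  obtain ⟨d, X, V, a, hG, ha, hF, hmass⟩ := nearSign (η' / 8) (by positivity)
  set S2 : ℝ := 2 * ∑ χ ∈ X, a χ ^ 2 with hS2
  have hS2pos : 0 < S2 := by linarith only [hη'1, hmass]
  set δ : ℝ := η' / 16 with hδ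
  have hδ0 : 0 < δ := by positivity
  have hsa : 0 ≤ ∑ χ ∈ X, |a χ| := Finset.sum_nonneg fun _ _ => abs_nonneg _
  set ε : ℝ := min (η' / 8) (δ / (2 * ∑ χ ∈ X, |a χ| + 1)) with hε
  have hε0 : 0 < ε := lt_min (by positivity) (by positivity)
  have hε1 : ε ≤ η' / 8 := min_le_left _ _
  have hε2 : 2 * ε * ∑ χ ∈ X, |a χ| ≤ δ := by
    have h1 : ε ≤ δ / (2 * ∑ χ ∈ X, |a χ| + 1) := min_le_right _ _
    rw [le_div_iff₀ (by positivity)] at h1
    nlinarith only [hε0, h1]
  set p : (Fin d → ℤ) → ℝ := fun χ => a χ ^ 2 / S2 with hp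
  have hp0 : ∀ χ ∈ X, 0 < p χ := fun χ hχ => by
    have := ha χ hχ
    simp only [hp]
    positivity
  have hp1 : 2 * ∑ χ ∈ X, p χ = 1 := by
    simp only [hp]
    rw [← Finset.sum_div, ← mul_div_assoc, ← hS2, div_self hS2pos.ne']
  obtain ⟨S, hS⟩ := comb coloring d X V hG p hp0 hp1 ε hε0
  have hPpos : (0 : ℝ) < S.P := by exact_mod_cast S.P_pos
  have hgpos : (0 : ℝ) < S.g := by exact_mod_cast S.g_pos
  have hL : ∀ χ ∈ X, dot χ V ≤ (S.q χ : ℤ) * S.g := by
    intro χ hχ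
    have h1 := (hS χ hχ).1
    have hpp := hp0 χ hχ
    rw [div_le_iff₀ (by positivity)] at h1
    have hLpos : (0 : ℝ) < dot χ V := by exact_mod_cast hG.V_pos χ hχ
    have hP1 : (1 : ℝ) ≤ S.P := by exact_mod_cast S.P_pos
    have hple : p χ ≤ 1 := by
      have h2 : p χ ≤ ∑ χ ∈ X, p χ := Finset.single_le_sum (fun i hi => (hp0 i hi).le) hχ
      linarith only [hp1, h2, hpp]
    have hqpos : (0 : ℝ) < S.q χ := by exact_mod_cast q_pos S hχ
    have h3 : (dot χ V : ℝ) ≤ S.q χ * S.g := by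
      calc (dot χ V : ℝ) = 1 * dot χ V := (one_mul _).symm
        _ ≤ S.P * dot χ V := mul_le_mul_of_nonneg_right hP1 hLpos.le
        _ ≤ S.q χ * (S.g * p χ) := h1
        _ ≤ S.q χ * (S.g * 1) := by gcongr
        _ = _ := by ring
    exact_mod_cast h3
  have hW : ∀ χ : Fin d → ℤ, ∃ w : ℕ → ℝ, χ ∈ X → ∀ k : ℤ,
      ∑ s ∈ range (mm S χ), e (w s - k * s / (mm S χ)) =
      (Real.sqrt (mm S χ) : ℂ) * e (-((Ac S χ) * k ^ 2 / (mm S χ))) := by
    intro χ
    by_cases hχ : χ ∈ X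
    · obtain ⟨w, hw⟩ := gaussStatement (mm S χ) (mm_odd S χ) (Ac S χ) (Ac_coprime S hχ)
      exact ⟨w, fun _ => hw⟩
    · exact ⟨fun _ => 0, fun h => absurd h hχ⟩
  choose W hW using hW
  have hβ : 0 < (1 + δ) ^ 2 / (S.P * S2) := by positivity
  have hKpos : (0 : ℝ) < KK S := by exact_mod_cast KK_pos S
  have hbd := comb_bound hG S a hF S2 ε δ hS2pos hε0 hδ0.le hε2 ha (fun χ hχ => (hS χ hχ).1)
    (fun χ hχ => (hS χ hχ).2)
  refine sort2 (build hG S hL (omS S a W) ((1 + δ) ^ 2 / (S.P * S2)) hβ η ?_ ?_)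
    (Sum.elim (sheet S) fun _ => false) ?_
  · have hfs := fill_small hG S hL p hp0 hp1 ε hε0 (fun χ hχ => (hS χ hχ).2)
    have h1 : ((fill S).card : ℝ) * (4 / (2 * KK S)) ≤ 2 * ε := by
      have : ((fill S).card : ℝ) * (4 / (2 * KK S)) ≤ ε * KK S * (4 / (2 * KK S)) :=
        mul_le_mul_of_nonneg_right hfs (by positivity)
      have e1 : ε * KK S * (4 / (2 * KK S)) = 2 * ε := by field_simp; ring
      linarith only [this, e1]
    have h2 : S.P * ((1 + δ) ^ 2 / (S.P * S2)) = (1 + δ) ^ 2 / S2 := by field_simp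
    have h3 : (1 + δ) ^ 2 / S2 ≤ 1 + η' / 2 := by
      rw [div_le_iff₀ hS2pos]
      have h4 : (1 + η' / 2) * (1 - η' / 8) ≤ (1 + η' / 2) * S2 :=
        mul_le_mul_of_nonneg_left hmass (by positivity)
      have h5 : (1 + δ) ^ 2 ≤ (1 + η' / 2) * (1 - η' / 8) := by
        rw [hδ]
        nlinarith only [hη'0, hη'1]
      linarith only [h4, h5]
    rw [h2]
    linarith only [hη'η, hδ, hδ0, hε1, h1, h3]
  · intro p' k ζ
    rw [comb_alg hG S a W (fun χ hχ => hW χ hχ) _ hβ p' k ζ]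
    exact hbd _
  · rintro (p' | j) k ζ
    · obtain ⟨γ, hγ⟩ := comb_alg2 hG S a W (fun χ hχ => hW χ hχ) _ hβ p' k ζ
      refine le_trans (le_of_eq ?_) (hbd γ)
      rw [← hγ]
      congr 1
      simp only [build, cterm]
      erw [Fintype.sum_sum_type]
      rw [Fintype.sum_prod_type]
      simp only [Sum.map_inr, reduceCtorEq, if_false, Finset.sum_const_zero, add_zero]
      rw [Finset.sum_eq_single_of_mem p' (mem_univ _)]
      · simp only [Sum.map_inl, if_true, Sum.elim_inl]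
        exact Finset.sum_congr rfl fun _ _ => by congr
      · intro p'' _ hp'
        refine Finset.sum_eq_zero fun x _ => if_neg ?_
        simpa using hp'
    · simp only [build, cterm]
      erw [Fintype.sum_sum_type]
      simp only [Sum.map_inl, reduceCtorEq, if_false, Finset.sum_const_zero, zero_add]
      rw [Finset.sum_eq_single_of_mem j (mem_univ _)]
      · simp only [Sum.map_inr, id_eq, if_true, Sum.elim_inr]
        rw [abs_mul]
        have h4 : ((1 : ℕ) : ℝ) / (2 * KK S) / (4 / (2 * KK S)) = (1 / 2) ^ 2 := by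
          push_cast
          field_simp
          norm_num
        rw [h4, Real.sqrt_sq (by norm_num)]
        norm_num
        exact Real.abs_cos_le_one _
      · intro j' _ hj'
        refine if_neg ?_
        simpa using hj'

end Vale.Agent.N110
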