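import Mathlib.Algebra.BigOperators.Group.Finset.Interval
import Vale.Agent.N110.Comb

/-! Coefficients of the skew chirp. -/

namespace Vale.Agent.N110

open Finset MeasureTheory Vale.Agent.P110 Vale.Agent.P110.AT

lemma J_sub {B : ℝ → ℝ} (hB : Continuous B) (l m k : ℝ) :
    J (fun x => B x - m) l k = J B l (k + m) := by
  unfold J
  refine intervalIntegral.integral_congr fun x _ => ?_
  simp only
  rw [intervalIntegral.integral_sub (hB.intervalIntegrable _ _) intervalIntegrable_const,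
    intervalIntegral.integral_const, smul_eq_mul]
  congr 1
  ring

lemma J_neg (B : ℝ → ℝ) (l k : ℝ) :
    J (fun x => -B x) l k = starRingEnd ℂ (J B l (-k)) := by
  unfold J
  rw [← intervalIntegral.intervalIntegral_conj]
  refine intervalIntegral.integral_congr fun x _ => ?_
  simp only
  rw [← e_neg, intervalIntegral.integral_neg]
  congr 1
  ring

lemma J_scale (B : ℝ → ℝ) (k : ℝ) :
    J (fun x => 2 * B (2 * x)) (1 / 4) k = (1 / 2 : ℝ) * J B (1 / 2) (k / 2) := by
  unfold J
  have h := intervalIntegral.integral_comp_mul_left (a := 0) (b := 1 / 4)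
    (fun x => e ((∫ t in (0 : ℝ)..x, B t) - k / 2 * x)) (two_ne_zero (α := ℝ))
  rw [show (2 : ℝ) * 0 = 0 by norm_num, show (2 : ℝ) * (1 / 4) = 1 / 2 by norm_num,
    Complex.real_smul, ← one_div] at h
  rw [← h]
  refine intervalIntegral.integral_congr fun x _ => ?_
  simp only
  rw [intervalIntegral.integral_const_mul, intervalIntegral.integral_comp_mul_left _ two_ne_zero]
  congr 1
  simp only [mul_zero, smul_eq_mul]
  ring

variable {η : ℝ} (S : Slot2 η)

lemma slotMain_neg (D : ℝ → ℝ) (om c : ℝ) {N : ℕ} (hN : 0 < N) {k : ℝ} (hk : k < 0) (i : ℕ) :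
    slotMain S.toSlotSystem D om c N k i = 0 := by
  refine if_neg fun h => ?_
  have h1 : (0 : ℝ) < S.β (S.blk i) * N := mul_pos (S.β_pos _) (by exact_mod_cast hN)
  have h2 : (0 : ℝ) ≤ blockStart S.β N (S.blk i) := Nat.cast_nonneg _
  have := div_neg_of_neg_of_pos (show k - blockStart S.β N (S.blk i) < 0 by linarith) h1
  linarith [h.1]

theorem sum_main2 {D : ℝ → ℝ} {κ L om c : ℝ} (hD : Prof D κ L) (hc0 : 0 ≤ c) (hc1 : c ≤ 1)
    {N : ℕ} (hN : 0 < N) (k : ℤ) (s : ℝ) (hs : e (-(k / 2)) = s) :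
    |2 * ∑ i ∈ range S.n, (if S.σ i then s else 1) *
      (slotMain S.toSlotSystem D om c N (k / 2) i).re| ≤ 1 := by
  by_cases hex : ∃ p < S.P, 0 ≤ ((k : ℝ) / 2 - blockStart S.β N p) / (S.β p * N) ∧
      ((k : ℝ) / 2 - blockStart S.β N p) / (S.β p * N) ≤ 1
  · obtain ⟨p, hpP, hp⟩ := hex
    have h2 := S.alg2 p hpP (k - 2 * blockStart S.β N p)
      (zeta D om (S.β p * N) (k / 2 - blockStart S.β N p))
    have h3 : √(D (((k : ℝ) / 2 - blockStart S.β N p) / (S.β p * N))) ≤ 1 :=
      Real.sqrt_le_one.mpr (hD.upper _)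
    have h4 := mul_le_mul (mul_le_mul h3 hc1 hc0 zero_le_one) h2 (abs_nonneg _) (by norm_num)
    rw [← abs_of_nonneg (a := √_ * c) (by positivity), ← abs_mul] at h4
    refine le_trans (le_of_eq ?_) (h4.trans (by norm_num))
    congr 1
    rw [Finset.mul_sum, Finset.mul_sum, Finset.sum_filter]
    refine Finset.sum_congr rfl fun i _ => ?_
    by_cases hb : S.blk i = p
    · rw [if_pos hb]
      subst hb
      unfold slotMain slen
      rw [if_pos hp, ← Complex.re_ofReal_mul, mul_left_comm]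
      have h5 : ((if S.σ i then s else 1 : ℝ) : ℂ) =
          e (-((k / 2 - blockStart S.β N (S.blk i)) * if S.σ i then 1 else 0)) := by
        split_ifs
        · rw [← hs, ← e_add_int _ (blockStart S.β N (S.blk i))]
          congr 1
          push_cast
          ring
        · simp [e_zero]
      rw [h5, ← e_add, Complex.re_ofReal_mul, e_re]
      push_cast
      rw [show ∀ a b c d x y : ℝ, x = y → 2 * (a * b * c * Real.cos x) =
        b * c * (2 * a * Real.cos y) from fun a b c d x y h => by rw [h]; ring]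
      · exact 0
      · ring
    · rw [if_neg hb, slotMain, if_neg fun hc => hb (active_unique S.β_pos hN hc hp)]
      simp
  · rw [Finset.sum_eq_zero fun i hi => ?_]
    · simp
    · rw [slotMain, if_neg fun hc => hex ⟨S.blk i, S.blk_lt i (Finset.mem_range.1 hi), hc⟩]
      simp

theorem coeff2 (S : Slot2 η) (hη : 0 < η) {ε : ℝ} (hε : 0 < ε) :
    ∃ (C : ℝ) (N0 : ℕ), 0 < C ∧ ∀ N : ℕ, N0 ≤ N → ∃ (R : ℕ) (B : ℝ → ℝ),
      (R : ℝ) ≤ (1 + η) * N + C ∧ IsPath B (1 / 2) 0 0 (C * N) ∧ (∀ x, |B x| ≤ R) ∧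
      ∀ k : ℕ, |√N * (2 * (J B (1 / 2) (k / 2)).re +
        (-1) ^ k * (2 * (J B (1 / 2) (-(k / 2))).re))| ≤ (if k = 0 then 2 else 1) + ε := by
  obtain ⟨κF, hκF, hF⟩ := fresnel_full
  set T := S.toSlotSystem with hT
  set Q : ℝ := ∑ i ∈ range S.n, 4 * (√(slen T i / S.β (S.blk i)) * 21 + 40 * √(slen T i)) with hQ
  have hQ0 : 0 ≤ Q := Finset.sum_nonneg fun i _ => by positivity
  obtain ⟨δ, hδ0, hδQ⟩ : ∃ δ : ℝ, 0 < δ ∧ √δ * Q ≤ ε := by
    refine ⟨(ε / (Q + 1)) ^ 2, by positivity, ?_⟩
    rw [Real.sqrt_sq (by positivity), div_mul_eq_mul_div, div_le_iff₀ (by positivity)]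
    nlinarith
  obtain ⟨D, κ, LD, hD, hκδ, hI0, hI1⟩ := profile_exists hδ0
  set om : ℝ := (1 - ∫ u in (0 : ℝ)..1, D u) / 2 with hom
  have homδ : om ≤ δ := by rw [hom]; linarith only [hδ0, hI0]
  have hsδ : 0 < √δ := Real.sqrt_pos.mpr hδ0
  have hslen : ∀ i, i < S.n → 0 < slen T i := fun i hi => sub_pos.2 (S.τ_lt i hi)
  choose! C N0 hCN using fun i (hi : i < S.n) =>
    module_exists hD hI1 hκF hF (hslen i hi) (S.β_pos (S.blk i)) hsδ
  set Cm : ℝ := ∑ i ∈ range S.n, |C i| with hCm
  have hCm0 : 0 ≤ Cm := Finset.sum_nonneg fun i _ => abs_nonneg _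
  have hCle : ∀ i, i < S.n → C i ≤ Cm := fun i hi =>
    (le_abs_self _).trans (Finset.single_le_sum (f := fun i => |C i|)
      (fun i _ => abs_nonneg _) (Finset.mem_range.mpr hi))
  have hNle : ∀ i, i < S.n → N0 i ≤ ∑ i ∈ range S.n, N0 i := fun i hi =>
    Finset.single_le_sum (f := fun i => N0 i) (fun i _ => Nat.zero_le _) (Finset.mem_range.mpr hi)
  have hden : (0 : ℝ) < S.den := by exact_mod_cast S.den_pos
  set A : ℝ := 1 + η + S.P + S.den with hA
  have hA0 : 0 < A := by positivity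
  refine ⟨(Cm + 1) * (2 * A) + 1, max 1 (∑ i ∈ range S.n, N0 i), by positivity, fun N hN => ?_⟩
  have hN1' : 1 ≤ N := (le_max_left _ _).trans hN
  have hN1 : (1 : ℝ) ≤ N := by exact_mod_cast hN1'
  set m : ℕ := S.den * ⌈((1 + η) * N + S.P) / S.den⌉₊ with hm
  have hm1 : (1 + η) * N + S.P ≤ m := by
    have := Nat.le_ceil (((1 + η) * N + S.P) / S.den)
    rw [div_le_iff₀ hden] at this
    rw [hm]
    push_cast
    linarith
  have hm2 : (m : ℝ) ≤ (1 + η) * N + S.P + S.den := by
    have := (Nat.ceil_lt_add_one (show 0 ≤ ((1 + η) * N + S.P) / S.den by positivity)).le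
    rw [div_add_one hden.ne', le_div_iff₀ hden] at this
    rw [hm]
    push_cast
    linarith
  have hP0 : (0 : ℝ) ≤ S.P := Nat.cast_nonneg _
  have hm3 : (m : ℝ) ≤ A * N := by rw [hA]; nlinarith
  have hblock : ∀ i, i < S.n → (blockStart S.β N (S.blk i) : ℝ) + S.β (S.blk i) * N ≤ m := by
    intro i hi
    have h1 := block_end_lt (β := S.β) (N := N) (S.blk_lt i hi)
    have h2 := blockStart_le S.β_pos N S.P
    have h3 : (∑ q ∈ range S.P, S.β q) * N ≤ (1 + η) * N := by
      gcongr
      exact S.sum_β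
    linarith only [h1, h2, h3, hm1]
  set L : ℝ := ((Cm + 1) * (2 * A) + 1) * N with hL
  set R : ℕ := m + ⌈Cm⌉₊ with hR
  have hmods : ∀ i, i < S.n → ∃ B : ℝ → ℝ, IsPath B (slen T i) 0 0 L ∧
      (∀ x, |B x| ≤ R) ∧ (∃ z : ℤ, ∫ x in (0 : ℝ)..(slen T i), B x = z) ∧
      ∀ k : ℝ, ‖√N * (e (-(k * S.τ i)) * J B (slen T i) k) - slotMain T D om ‖κF‖ N k i‖ ≤
        √δ * (√(slen T i / S.β (S.blk i)) * 21 + 40 * √(slen T i)) := by
    intro i hi
    obtain ⟨B, hB1, hB2, ⟨z, hB3⟩, hB4⟩ := hCN i hi N ((hNle i hi).trans ((le_max_right _ _).trans hN))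
      (2 * m) (by nlinarith) (m + blockStart S.β N (S.blk i)) (by positivity)
      (by linarith [hblock i hi]) (modPhase T N i)
    have hP : IsPath (fun x => B x - m) (slen T i) 0 0 L := by
      refine ⟨fun x y => ?_, fun x hx => ?_, fun x hx => ?_⟩
      · rw [sub_sub_sub_cancel_right]
        refine (hB1.lip x y).trans (mul_le_mul_of_nonneg_right ?_ (abs_nonneg _))
        have := hCle i hi
        have h0 : (0 : ℝ) ≤ m := Nat.cast_nonneg _
        rw [hL]
        nlinarith
      · rw [hB1.left x hx]; ring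
      · rw [hB1.right x hx]; ring
    have hR' : ∀ x, |B x - m| ≤ R := fun x => by
      have h1 := hB2 x
      have h2 := hCle i hi
      have h3 := Nat.le_ceil Cm
      have h0 : (0 : ℝ) ≤ m := Nat.cast_nonneg _
      rw [hR, abs_le]
      push_cast
      constructor <;> linarith [h1.1, h1.2]
    obtain ⟨z', hz'⟩ : ∃ z' : ℤ, ∫ x in (0 : ℝ)..(slen T i), (B x - m) = z' := by
      obtain ⟨a, ha⟩ := S.den_int i
      obtain ⟨b, hb⟩ := S.den_int (i + 1)
      refine ⟨z - ⌈((1 + η) * N + S.P) / S.den⌉₊ * (b - a), ?_⟩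
      rw [intervalIntegral.integral_sub (hB1.continuous.intervalIntegrable _ _)
        intervalIntegrable_const, hB3, intervalIntegral.integral_const, smul_eq_mul, hm]
      push_cast
      rw [← ha, ← hb, slen]
      ring
    have hE : ∀ k : ℝ, ‖√N * J (fun x => B x - m) (slen T i) k -
        mainTerm D om (S.β (S.blk i) * N) (√(slen T i / S.β (S.blk i))) ‖κF‖ (modPhase T N i)
          (slen T i) (k - blockStart S.β N (S.blk i))‖ ≤
        √δ * (√(slen T i / S.β (S.blk i)) * 21 + 40 * √(slen T i)) := by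
      intro k
      have h1 := hB4 (k + m)
      rw [show k + m - (m + blockStart S.β N (S.blk i)) = k - blockStart S.β N (S.blk i) by ring,
        ← J_sub hB1.continuous] at h1
      refine h1.trans ?_
      have h4 : √κ ≤ √δ := Real.sqrt_le_sqrt hκδ
      have h5 : √(slen T i * om) ≤ √(slen T i) * √δ := by
        rw [← Real.sqrt_mul (hslen i hi).le]
        exact Real.sqrt_le_sqrt (mul_le_mul_of_nonneg_left homδ (hslen i hi).le)
      have h6 := Real.sqrt_nonneg (slen T i / S.β (S.blk i))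
      nlinarith only [h5, h4, h6]
    rcases hup : S.up i with _ | _
    · refine ⟨rev _ (slen T i), isPath_rev hP, fun x => hR' _, ⟨z', ?_⟩, fun k => ?_⟩
      · rw [integral_rev hP.continuous, sub_self, intervalIntegral.integral_same, sub_zero, hz']
      · rw [J_rev hP.continuous, hz', ← slotMain_down T D om _ N k i hup,
          show (z' : ℝ) - k * slen T i = -(k * slen T i) + z' by ring, e_add_int]
        refine le_trans (le_of_eq ?_) (hE k)
        rw [← RCLike.norm_conj (_ - mainTerm _ _ _ _ _ _ _ _), map_sub, map_mul,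
          Complex.conj_ofReal, mul_left_comm, ← mul_sub, mul_left_comm, ← mul_sub, norm_mul,
          norm_mul, norm_e, norm_e, one_mul, one_mul]
    · refine ⟨_, hP, hR', ⟨z', hz'⟩, fun k => ?_⟩
      rw [← slotMain_up T D om _ N k i hup, mul_left_comm, ← mul_sub, norm_mul, norm_e, one_mul]
      exact hE k
  choose! B hB1 hB2 hB3 hB4 using hmods
  obtain ⟨-, Bt, hBt1, hBt2, -, hBt4⟩ := glue_aux S.n S.τ S.τ_zero S.τ_lt
    (fun i x => if S.σ i then -B i x else B i x) 0 L (-R) R
    ⟨by simp, by simp⟩ (by positivity) (fun i hi => by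
      have h := hB1 i hi
      split_ifs
      · exact ⟨fun x y => by rw [neg_sub_neg, abs_sub_comm]; exact h.lip x y,
          fun x hx => by rw [h.left x hx, neg_zero], fun x hx => by rw [h.right x hx, neg_zero]⟩
      · exact h)
    (fun i hi x => by
      have h := abs_le.1 (hB2 i hi x)
      split_ifs
      · constructor <;> linarith [h.1, h.2]
      · exact h)
    (fun i hi => by
      obtain ⟨z, hz⟩ := hB3 i hi
      split_ifs
      · exact ⟨-z, by rw [intervalIntegral.integral_neg]; push_cast; exact congrArg _ hz⟩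
      · exact ⟨z, hz⟩)
  rw [S.τ_last] at hBt1 hBt4
  refine ⟨R, Bt, ?_, hBt1, fun x => abs_le.2 (hBt2 x), fun k => ?_⟩
  · have := (Nat.ceil_lt_add_one hCm0).le
    rw [hR]
    push_cast
    nlinarith
  set s : ℝ := (-1) ^ k with hs
  have hss : s * s = 1 := by rw [hs, ← mul_pow]; simp
  have hsa : |s| = 1 := by rw [hs]; simp
  have hes : e (k / 2) = s := by
    unfold e
    rw [show ((2 * Real.pi * (k / 2) : ℝ) : ℂ) * Complex.I = k * (Real.pi * Complex.I) by
      push_cast; ring, Complex.exp_nat_mul, Complex.exp_pi_mul_I, hs]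
    push_cast
    rfl
  set t : ℝ → ℕ → ℝ := fun k i => (√N * (e (-(k * S.τ i)) * J (B i) (slen T i) k)).re with ht
  set M : ℝ → ℕ → ℝ := fun k i => (slotMain T D om ‖κF‖ N k i).re with hM
  have h1 : ∀ k : ℝ, √N * (J Bt (1 / 2) k).re =
      ∑ i ∈ range S.n, if S.σ i then t (-k) i else t k i := by
    intro k
    rw [hBt4, ← Complex.re_ofReal_mul, Finset.mul_sum, Complex.re_sum]
    refine Finset.sum_congr rfl fun i _ => ?_
    split_ifs
    · rw [J_neg, ht, ← Complex.conj_re]
      simp only [map_mul, Complex.conj_ofReal, Complex.conj_conj, ← e_neg, neg_mul, slen]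
      rfl
    · rfl
  have h2 : √N * (2 * (J Bt (1 / 2) (k / 2)).re + s * (2 * (J Bt (1 / 2) (-(k / 2))).re)) =
      2 * ∑ i ∈ range S.n, (if S.σ i then s else 1) * M (k / 2) i +
      s * (2 * ∑ i ∈ range S.n, (if S.σ i then s else 1) * M (-(k / 2)) i) +
      ∑ i ∈ range S.n, 2 * (if S.σ i then s else 1) *
        ((t (k / 2) i - M (k / 2) i) + s * (t (-(k / 2)) i - M (-(k / 2)) i)) := by
    rw [mul_add, mul_left_comm, h1, mul_left_comm, mul_left_comm (√N), h1]
    simp only [Finset.mul_sum, ← Finset.sum_add_distrib]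
    refine Finset.sum_congr rfl fun i _ => ?_
    split_ifs
    · rw [neg_neg]
      linear_combination (-2 * t (-(k / 2)) i) * hss
    · ring
  have h3 : ∀ k : ℝ, ∀ i < S.n, |t k i - M k i| ≤
      √δ * (√(slen T i / S.β (S.blk i)) * 21 + 40 * √(slen T i)) := fun k i hi => by
    rw [ht, hM]
    simp only
    rw [← Complex.sub_re]
    exact (Complex.abs_re_le_norm _).trans (hB4 i hi k)
  have h4 := sum_main2 S (om := om) hD (norm_nonneg κF) hκF hN1' k s (by
    rw [e_neg]; push_cast; rw [hes, Complex.conj_ofReal])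
  have h5 : |s * (2 * ∑ i ∈ range S.n, (if S.σ i then s else 1) * M (-(k / 2)) i)| ≤
      if k = 0 then 1 else 0 := by
    split_ifs with hk
    · have := sum_main2 S (om := om) hD (norm_nonneg κF) hκF hN1' (-k) s (by
        rw [← hes]; push_cast; congr 1; ring)
      rw [abs_mul, hsa, one_mul]
      simpa [neg_div] using this
    · rw [Finset.sum_eq_zero fun i _ => ?_]
      · simp
      · have : (0 : ℝ) < k := by exact_mod_cast Nat.pos_of_ne_zero hk
        simp only [hM]
        rw [slotMain_neg S _ _ _ hN1' (by linarith)]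
        simp
  have h6 : |∑ i ∈ range S.n, 2 * (if S.σ i then s else 1) *
      ((t (k / 2) i - M (k / 2) i) + s * (t (-(k / 2)) i - M (-(k / 2)) i))| ≤ ε := by
    refine (Finset.abs_sum_le_sum_abs _ _).trans (le_trans ?_ hδQ)
    rw [hQ, Finset.mul_sum]
    refine Finset.sum_le_sum fun i hi => ?_
    have a1 := h3 (k / 2) i (Finset.mem_range.1 hi)
    have a2 := h3 (-(k / 2)) i (Finset.mem_range.1 hi)
    have a3 : |(if S.σ i then s else 1 : ℝ)| = 1 := by split_ifs <;> simp [hsa]
    have a4 := abs_add_le (t (k / 2) i - M (k / 2) i) (s * (t (-(k / 2)) i - M (-(k / 2)) i))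
    rw [abs_mul s, hsa] at a4
    rw [abs_mul, abs_mul, a3, abs_two]
    linarith
  rw [h2]
  refine (abs_add_le _ _).trans (add_le_add ((abs_add_le _ _).trans ?_) h6)
  push_cast at h4
  refine (add_le_add h4 h5).trans ?_
  split_ifs <;> norm_num

end Vale.Agent.N110
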