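import Vale.Agent.N110.Anal
import Vale.Agent.P110.H880.Merit

/-! Flat skew-symmetric sign sequences. -/

namespace Vale.Agent.N110

open Finset Vale.Agent.P110 Vale.Agent.P110.AT

/-- the skew-symmetric sequence of length `2n+1` with centre `x0` and right half `y` -/
def ext (n : ℕ) (x0 : ℝ) (y : ℕ → ℝ) (k : ℕ) : ℝ :=
  if k < n then (-1) ^ (n - k) * y (n - k - 1) else if k = n then x0 else y (k - n - 1)

lemma sum_ext {M : Type*} [AddCommMonoid M] (n : ℕ) (x0 : ℝ) (y : ℕ → ℝ) (F : ℕ → ℝ → M) :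
    ∑ k ∈ range (2 * n + 1), F k (ext n x0 y k) = F n x0 + ∑ l ∈ range n,
      (F (n + (l + 1)) (y l) + F (n - 1 - l) ((-1) ^ (l + 1) * y l)) := by
  rw [show 2 * n + 1 = n + (n + 1) by ring, Finset.sum_range_add, Finset.sum_range_succ',
    ← Finset.sum_range_reflect _ n, Finset.sum_add_distrib, add_comm, add_comm _ (F (n + 0) _),
    add_assoc]
  congr 1
  · simp [ext]
  congr 1
  · refine Finset.sum_congr rfl fun l _ => ?_
    rw [ext, if_neg (by omega), if_neg (by omega), show n + (l + 1) - n - 1 = l by omega]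
  · refine Finset.sum_congr rfl fun l hl => ?_
    have := Finset.mem_range.1 hl
    rw [ext, if_pos (by omega), show n - (n - 1 - l) = l + 1 by omega, Nat.add_sub_cancel]

lemma norm_ext (n : ℕ) (x0 : ℝ) (y : ℕ → ℝ) (θ : ℝ) :
    ‖∑ k ∈ range (2 * n + 1), (ext n x0 y k : ℂ) * e (k * θ)‖ = ‖x0 + sk n y θ‖ := by
  have key : ∀ z : ℂ, ‖e (n * θ) * z‖ = ‖z‖ := fun z => by rw [norm_mul, norm_e, one_mul]
  rw [sum_ext n x0 y fun k u => (u : ℂ) * e (k * θ), ← key (x0 + _), mul_add, mul_comm, sk,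
    Finset.mul_sum]
  congr 2
  refine Finset.sum_congr rfl fun l hl => ?_
  have h := Finset.mem_range.1 hl
  have h1 : ((n - 1 - l : ℕ) : ℝ) = n - (l + 1 : ℕ) := by
    rw [← Nat.cast_sub h, Nat.sub_sub, add_comm]
  rw [h1, Nat.cast_add n, add_mul, sub_mul, sub_eq_add_neg, e_add, e_add]
  push_cast
  ring

lemma sk_sub (n : ℕ) (x y : ℕ → ℝ) {a : ℝ}
    (h : ∀ θ : ℝ, ‖∑ k ∈ range n, ((x k - y k : ℝ) : ℂ) * e (k * θ)‖ ≤ a) (θ : ℝ) :
    ‖sk n x θ - sk n y θ‖ ≤ 2 * a := by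
  have h1 : sk n x θ - sk n y θ = e θ * ∑ k ∈ range n, ((x k - y k : ℝ) : ℂ) * e (k * θ) +
      starRingEnd ℂ (e (θ + 1 / 2) *
        ∑ k ∈ range n, ((x k - y k : ℝ) : ℂ) * e (k * (θ + 1 / 2))) := by
    rw [Finset.mul_sum, Finset.mul_sum, map_sum, sk, sk, ← Finset.sum_sub_distrib,
      ← Finset.sum_add_distrib]
    refine Finset.sum_congr rfl fun l _ => ?_
    rw [mul_left_comm, mul_left_comm (e _), ← e_add, ← e_add,
      show θ + 1 / 2 + l * (θ + 1 / 2) = (l + 1 : ℕ) / 2 + (l + 1 : ℕ) * θ by push_cast; ring,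
      show θ + l * θ = (l + 1 : ℕ) * θ by push_cast; ring, e_add, e_half, map_mul, map_mul,
      ← e_neg, Complex.conj_ofReal]
    simp only [map_pow, map_neg, map_one]
    push_cast
    ring
  rw [h1]
  refine (norm_add_le _ _).trans ?_
  rw [RCLike.norm_conj, norm_mul, norm_mul, norm_e, norm_e]
  linarith [h θ, h (θ + 1 / 2)]

theorem pre_flat {t : ℝ} (ht0 : 0 < t) (ht1 : t ≤ 1 / 10) : ∃ n₀ : ℕ, ∀ n : ℕ, n₀ ≤ n →
    ∃ y : ℕ → ℝ, (∀ k, |y k| ≤ 1) ∧ ∀ θ : ℝ,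
      (1 - 3 * t) * √(2 * n) ≤ ‖sk n y θ‖ ∧ ‖sk n y θ‖ ≤ (1 + t) * √(2 * n) := by
  obtain ⟨M₀, hA⟩ := anal2 ht0
  refine ⟨4 * M₀ + ⌈4 / t⌉₊, fun n hn => ?_⟩
  have hn2 : 4 / t ≤ n := (Nat.le_ceil _).trans (by exact_mod_cast (by omega : ⌈4 / t⌉₊ ≤ n))
  have hn4 : (4 * M₀ : ℝ) ≤ n := by exact_mod_cast (by omega : 4 * M₀ ≤ n)
  rw [div_le_iff₀ ht0] at hn2
  have hn0 : (0 : ℝ) ≤ n := n.cast_nonneg
  have hA0 : 0 < 1 + t := by linarith
  set M : ℕ := ⌊(n : ℝ) / (2 * (1 + t))⌋₊ with hM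
  have hM1 : (M : ℝ) * (2 * (1 + t)) ≤ n :=
    (le_div_iff₀ (by positivity)).1 (Nat.floor_le (by positivity))
  have hM2 : (n : ℝ) ≤ (M + 1) * (2 * (1 + t)) :=
    (div_le_iff₀ (by positivity)).1 (Nat.lt_floor_add_one _).le
  have hM0 : (0 : ℝ) ≤ M := M.cast_nonneg
  obtain ⟨R, x, hRn, hx, hflat⟩ := hA M (Nat.le_floor (by
    rw [le_div_iff₀ (by positivity)]
    nlinarith only [M₀.cast_nonneg (α := ℝ), hn4, ht1]))
  have hRn' : R ≤ n := by exact_mod_cast (by linarith : (R : ℝ) ≤ n)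
  set y : ℕ → ℝ := fun k => if k < R then x k / (1 + t) else 0 with hy
  have hyn : ∀ θ, (1 + t) * ‖sk n y θ‖ = ‖sk R x θ‖ := fun θ => by
    rw [← Complex.norm_of_nonneg hA0.le, ← norm_mul, sk, sk, Finset.mul_sum,
      ← Finset.sum_subset (Finset.range_subset_range.2 hRn') fun k _ hk => by
        simp only [hy, if_neg fun h => hk (Finset.mem_range.2 h)]; simp]
    congr 1
    refine Finset.sum_congr rfl fun k hk => ?_
    simp only [hy, if_pos (Finset.mem_range.1 hk)]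
    rw [← mul_assoc, ← Complex.ofReal_mul, mul_div_cancel₀ _ hA0.ne']
  have hr0 := Real.sqrt_nonneg (M : ℝ)
  have hr2 := Real.sq_sqrt hM0
  have h1 : 2 * √M ≤ √(2 * n) := Real.le_sqrt_of_sq_le (by
    nlinarith only [hr2, hM1, mul_nonneg hM0 ht0.le])
  have h2 : √(2 * n) ≤ (1 + t) * (2 * √M) := Real.sqrt_le_iff.2 ⟨by positivity, by
    rw [mul_pow, mul_pow, hr2]
    nlinarith only [mul_le_mul_of_nonneg_left hM2 hA0.le, hn2, ht0, ht1]⟩
  refine ⟨y, fun k => ?_, fun θ => ⟨?_, ?_⟩⟩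
  · simp only [hy]
    split_ifs
    · rw [abs_div, abs_of_pos hA0, div_le_one hA0]
      exact hx k
    · simp
  · have a1 := (abs_le.1 (hflat θ)).1
    rw [← hyn] at a1
    refine le_of_mul_le_mul_left ?_ hA0
    have a2 := mul_le_mul_of_nonneg_left h2
      (mul_nonneg hA0.le (show 0 ≤ 1 - 3 * t by linarith only [ht1]))
    have a3 : (1 + t) * (1 - 3 * t) * (1 + t) * 2 ≤ 2 - t := by
      nlinarith only [mul_pos ht0 ht0, ht0, ht1]
    linarith only [mul_le_mul_of_nonneg_right a3 hr0, a1, a2]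
  · have a1 := (abs_le.1 (hflat θ)).2
    linarith only [a1, hyn θ, mul_nonneg ht0.le (norm_nonneg (sk n y θ)),
      mul_le_mul_of_nonneg_left h1 hA0.le, mul_nonneg ht0.le hr0]

theorem skew_flat {c : ℝ} (hc : 0 < c) : ∃ n₀ : ℕ, ∀ n : ℕ, n₀ ≤ n → ∃ ε : ℕ → ℝ,
    (∀ k, ε k = 1 ∨ ε k = -1) ∧ ∀ θ : ℝ,
      |‖(1 : ℝ) + sk n ε θ‖ - √(2 * n + 1 : ℕ)| ≤ c * √(2 * n + 1 : ℕ) := by
  obtain ⟨δ, hδ, N₁, hR⟩ := RT.rounding (c / 8) (by positivity)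
  obtain ⟨t, ht0, ht1, htδ, htc⟩ : ∃ t : ℝ, 0 < t ∧ t ≤ 1 / 10 ∧ 6 * t ≤ δ ∧ 6 * t ≤ c := by
    refine ⟨min (1 / 10) (min (δ / 6) (c / 6)), by positivity, min_le_left _ _, ?_, ?_⟩
    · linarith [(min_le_right (1 / 10 : ℝ) (min (δ / 6) (c / 6))).trans (min_le_left _ _)]
    · linarith [(min_le_right (1 / 10 : ℝ) (min (δ / 6) (c / 6))).trans (min_le_right _ _)]
  obtain ⟨M₀, hA⟩ := pre_flat ht0 ht1
  refine ⟨N₁ + M₀ + ⌈(8 / c) ^ 2⌉₊, fun n hn => ?_⟩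
  have hn3 : 8 / c ≤ √(2 * n + 1 : ℕ) := Real.le_sqrt_of_sq_le ((Nat.le_ceil _).trans
    (by exact_mod_cast (by omega : ⌈(8 / c) ^ 2⌉₊ ≤ 2 * n + 1)))
  rw [div_le_iff₀ hc] at hn3
  have hn0 : (0 : ℝ) ≤ n := n.cast_nonneg
  obtain ⟨y, hy1, hb⟩ := hA n (by omega)
  set s := √(2 * n : ℝ) with hs
  set u := √((2 * n + 1 : ℕ) : ℝ) with hu
  have hs0 : 0 ≤ s := Real.sqrt_nonneg _
  have hs2 : s ^ 2 = 2 * n := Real.sq_sqrt (by positivity)
  have h3 : s ≤ u := Real.sqrt_le_sqrt (by push_cast; linarith)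
  have h4 : u ≤ s + 1 := Real.sqrt_le_iff.2 ⟨by positivity, by push_cast; nlinarith only [hs0, hs2]⟩
  have h5 : √n ≤ u := Real.sqrt_le_sqrt (by push_cast; linarith)
  have hsum : ∑ k ∈ range n, (1 - y k ^ 2) ≤ δ * n := by
    have a1 := fin_sum_sq_ge (2 * n + 1) (ext n 0 y) ((1 - 3 * t) * s)
      (mul_nonneg (by linarith only [ht1]) hs0)
      fun θ => by rw [norm_ext, Complex.ofReal_zero, zero_add]; exact (hb θ).1
    have a2 : ∀ l : ℕ, ((-1 : ℝ) ^ (l + 1) * y l) ^ 2 = y l ^ 2 := fun l => by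
      rw [mul_pow, ← pow_mul, mul_comm (l + 1), pow_mul, neg_one_sq, one_pow, one_mul]
    rw [sum_ext n 0 y fun _ u => u ^ 2, mul_pow, hs2] at a1
    simp only [a2, Finset.sum_add_distrib] at a1
    rw [Finset.sum_sub_distrib, Finset.sum_const, Finset.card_range, nsmul_one]
    linarith only [a1, mul_le_mul_of_nonneg_right htδ hn0, mul_nonneg (sq_nonneg t) hn0]
  obtain ⟨ε, hε, hε2⟩ := hR n (by omega) y hy1 hsum
  refine ⟨ε, hε, fun θ => ?_⟩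
  have a1 := sk_sub n ε y hε2 θ
  have a2 := abs_norm_sub_norm_le ((1 : ℝ) + sk n ε θ) (sk n y θ)
  have a3 := norm_add_le ((1 : ℝ) : ℂ) (sk n ε θ - sk n y θ)
  rw [← add_sub_assoc, Complex.norm_real, norm_one] at a3
  have a4 := abs_le.1 (a2.trans a3)
  have a5 := mul_le_mul_of_nonneg_left h5 hc.le
  have a6 := mul_le_mul_of_nonneg_right htc hs0
  have a7 := mul_le_mul_of_nonneg_left h3 hc.le
  have a8 := mul_nonneg ht0.le hs0
  rw [abs_le]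
  constructor <;> linarith only [(hb θ).1, (hb θ).2, a4.1, a4.2, a1, a5, a6, a7, a8, hn3, h3, h4]

lemma ext_skew (n : ℕ) {ε : ℕ → ℝ} (h1 : ∀ k, ε k = 1 ∨ ε k = -1) :
    (∀ k, ext n 1 ε k = 1 ∨ ext n 1 ε k = -1) ∧
      ∀ l ≤ n, ext n 1 ε (n + l) = (-1) ^ l * ext n 1 ε (n - l) := by
  refine ⟨fun k => ?_, fun l hl => ?_⟩
  · unfold ext
    split_ifs
    · rcases neg_one_pow_eq_or ℝ (n - k) with h | h <;> rcases h1 (n - k - 1) with h' | h' <;>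
        simp [h, h']
    · exact Or.inl rfl
    · exact h1 _
  · rcases l.eq_zero_or_pos with rfl | h0
    · simp
    · rw [ext, ext, if_neg (by omega), if_neg (by omega), if_pos (by omega),
        Nat.add_sub_cancel_left, Nat.sub_sub_self hl, ← mul_assoc, ← mul_pow]
      simp

theorem skew_seq : ∃ ε : ℕ → ℕ → ℝ, (∀ n k, ε n k = 1 ∨ ε n k = -1) ∧
    (∀ n, ∀ l ≤ n, ε n (n + l) = (-1) ^ l * ε n (n - l)) ∧
    ∀ c : ℝ, 0 < c → ∃ n₀ : ℕ, ∀ n : ℕ, n₀ ≤ n → ∀ z : ℂ, ‖z‖ = 1 →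
      |‖∑ k ∈ range (2 * n + 1), (ε n k : ℂ) * z ^ k‖ - √(2 * n + 1 : ℕ)| ≤
        c * √(2 * n + 1 : ℕ) := by
  classical
  let P : ℕ → ℕ → (ℕ → ℝ) → Prop := fun m n ε => ∀ θ : ℝ,
    |‖(1 : ℝ) + sk n ε θ‖ - √(2 * n + 1 : ℕ)| ≤ 1 / (m + 1) * √(2 * n + 1 : ℕ)
  have key : ∀ n, ∃ ε : ℕ → ℝ, (∀ k, ε k = 1 ∨ ε k = -1) ∧
      ∀ m ≤ n, (∃ ε', (∀ k, ε' k = 1 ∨ ε' k = -1) ∧ P m n ε') → P m n ε := fun n => by
    by_cases h : ∃ m ≤ n, ∃ ε', (∀ k, ε' k = 1 ∨ ε' k = -1) ∧ P m n ε'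
    · obtain ⟨m, hm, h⟩ := h
      obtain ⟨ε, h1, h2⟩ := Nat.findGreatest_spec
        (P := fun m => ∃ ε', (∀ k, ε' k = 1 ∨ ε' k = -1) ∧ P m n ε') hm h
      refine ⟨ε, h1, fun m' hm' h' θ => (h2 θ).trans ?_⟩
      have := Nat.le_findGreatest
        (P := fun m => ∃ ε', (∀ k, ε' k = 1 ∨ ε' k = -1) ∧ P m n ε') hm' h'
      gcongr
    · exact ⟨fun _ => 1, fun _ => Or.inl rfl, fun m hm h' => (h ⟨m, hm, h'⟩).elim⟩
  choose ε h1 h2 using key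
  refine ⟨fun n => ext n 1 (ε n), fun n => (ext_skew n (h1 n)).1, fun n => (ext_skew n (h1 n)).2,
    fun c hc => ?_⟩
  obtain ⟨m, hm⟩ := exists_nat_one_div_lt hc
  obtain ⟨n₀, h⟩ := skew_flat (show (0 : ℝ) < 1 / (m + 1) by positivity)
  refine ⟨n₀ + m, fun n hn z hz => ?_⟩
  obtain ⟨θ, rfl⟩ := fin_exists_e_eq hz
  simp only [fin_e_pow]
  rw [norm_ext]
  exact (h2 n m (by omega) (h n (by omega)) θ).trans
    (mul_le_mul_of_nonneg_right hm.le (Real.sqrt_nonneg _))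

/-- aperiodic autocorrelations of a sign sequence with small sup norm -/
theorem merit {N : ℕ} {ε : ℕ → ℝ} (hε : ∀ k, ε k = 1 ∨ ε k = -1) {B : ℝ} (hB : 0 ≤ B)
    (h : ∀ z : ℂ, ‖z‖ = 1 → ‖∑ k ∈ range N, (ε k : ℂ) * z ^ k‖ ≤ B) :
    (N : ℝ) ^ 2 + ∑ k ∈ Ico 1 N, (∑ j ∈ range (N - k), ε j * ε (j + k)) ^ 2 ≤ B ^ 4 := by
  let a : Fin N → ℤˣ := fun k => if ε k = 1 then 1 else -1
  have ha : ∀ k : Fin N, ((a k : ℤ) : ℝ) = ε k := fun k => by
    simp only [a]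
    split_ifs with h1
    · simp [h1]
    · simp [(hε k).resolve_left h1]
  have h1 := H880.autocorr a hB fun z hz => by
    rw [H880.eval_lw]
    refine le_of_eq_of_le ?_ (h z hz)
    rw [Finset.sum_range]
    simp only [← ha, Complex.ofReal_intCast]
  refine le_of_eq_of_le ?_ h1
  congr 1
  refine Finset.sum_congr rfl fun k _ => ?_
  congr 1
  unfold acf
  push_cast
  simp only [ha]
  rw [Finset.sum_comm, Fin.sum_univ_eq_sum_range
    (fun j => ∑ i : Fin N, if (i : ℕ) = j + k then ε i * ε j else 0),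
    ← Finset.sum_subset (Finset.range_subset_range.2 (Nat.sub_le N k)) fun j _ hj =>
      Finset.sum_eq_zero fun i _ => if_neg (by have := i.2; simp at hj; omega)]
  refine Finset.sum_congr rfl fun j hj => ?_
  rw [Fin.sum_univ_eq_sum_range (fun i => if i = j + k then ε i * ε j else 0),
    Finset.sum_ite_eq', if_pos (by simp at hj ⊢; omega), mul_comm]

end Vale.Agent.N110
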